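import Vale.Agent.P368.Main

namespace Vale.Agent.Results.P368.Parity

open Vale.Agent.P368

theorem result :
    (¬ ∃ (d c : ℕ) (ε : ℝ), 0 < ε ∧ ∀ n : ℕ, 1 ≤ n →
      ∃ (N : ℕ) (C : List (Layer N)) (out : Fin N), n ≤ N ∧ N ≤ c * n ^ c ∧ C.length ≤ d ∧
        ∀ x : Fin n → Bool, 1 / 2 + ε ≤ prob C out x (parity x)) ∧
    ∀ (d c : ℕ) (δ : ℝ), 0 < δ → ∃ n0 : ℕ, ∀ n : ℕ, n0 ≤ n → ∀ N : ℕ, n ≤ N → N ≤ n ^ c →
      ∀ C : List (Layer N), entDepth C ≤ d → ∀ out : Fin N,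
        |parityCorr n C out| ≤ Real.exp (-(n : ℝ) ^ (1 - δ)) :=
  ⟨no_family, fun d c _ hδ => corr_small d c hδ⟩

end Vale.Agent.Results.P368.Parity
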